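import Crest.Agent.N233.Lo.Defs
import Crest.Agent.N255.Da.Br

/-!
# Row 233, block Lo (helper75): finite checks on the 600-cell block
-/

set_option autoImplicit false

namespace Crest.Agent.N233.Lo

open PS Crest.Agent.N255 Crest.Agent.N255.Da

/-- the support of a vertex as a mask -/
def sm (i : ℕ) : ℕ :=
  (0xffffffffffffffffffffffffffffffffffffffffffffffffffffffffffffffffffffffffffffffffffff7bdffffffff7bff7b3dd591eee6a2c48 >>> (4 * i)) % 16

/-- the vertices carried by the face `k` -/
def MM (k : ℕ) : ℕ :=
  (0xfffffffffffffffffffffffffffff000000000000000000000000001ff00000000000000000000020003e07000000000000000000000000000070000000000000000000004008c61900000000000000000000000000019000000000000000000000000006010000000000000000000000000000100000000000000000000080114a2a0000000000000000000000000002a00000000000000000000000000a020000000000000000000000000000200000000000000000000000004208000000000000000000000000000080000000000000000000000000020000000000000000000000000000000 >>> (116 * k)) % 2 ^ 116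

/-- the vertices carried by the boundary of the face `k` -/
def BM (k : ℕ) : ℕ :=
  (0xe019ffff0000000000000000000000000003f00000000000000000000000000e07000000000000000000000000000030000000000000000000000000461900000000000000000000000000009000000000000000000000000002010000000000000000000000000000000000000000000000000000004a2a0000000000000000000000000000a000000000000000000000000002020000000000000000000000000000000000000000000000000000000208000000000000000000000000000000000000000000000000000000000000000000000000000000000000000 >>> (116 * k)) % 2 ^ 116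

/-- the number of vertices of a face -/
def pc (k : ℕ) : ℕ := ((List.range 4).filter fun t => k.testBit t).length

def cm (t : List ℕ) : ℕ := t.foldr (fun i c => sm i ||| c) 0

def lk (M : ℕ) (t : List ℕ) : ℕ := t.foldr (fun i A => A &&& mk i) M

/-- evaluate the argument first -/
def frc {α : Type} (n : ℕ) (f : ℕ → α) : α :=
  match n with
  | 0 => f 0
  | m + 1 => f (m + 1)

theorem frc_eq {α : Type} (n : ℕ) (f : ℕ → α) : frc n f = f n := by cases n <;> rfl

/-- `Da.run` with sharing -/
def rn0 (pick : ℕ → ℕ) : ℕ → ℕ → ℕ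
  | 0, _ => 1000
  | f + 1, A => frc A fun A => bif A == 0 then 1 else frc (pick A) fun v =>
      bif A.testBit v then frc (A ^^^ 2 ^ v) fun B => frc (mk v) fun N =>
        bif B &&& N == B then 0 else rn0 pick f (A &&& N) + rn0 pick f B
      else 1000

theorem rn0_eq (pick : ℕ → ℕ) (f : ℕ) : ∀ A, rn0 pick f A = run mk pick f A := by
  induction f with
  | zero => intro A; rfl
  | succ f ih => intro A; simp only [rn0, run, frc_eq, ih]

/-- `Da.runL` with sharing -/
def rnL (pick : ℕ → ℕ) (f : ℕ) : List ℕ → ℕ → ℕ
  | [], A => rn0 pick f A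
  | v :: l, A => frc A fun A =>
      bif A.testBit v then rn0 pick f (A &&& mk v) + rnL pick f l (A ^^^ 2 ^ v) else 1000

theorem rnL_eq (pick : ℕ → ℕ) (f : ℕ) (l : List ℕ) : ∀ A, rnL pick f l A = runL mk pick f l A := by
  induction l with
  | nil => intro A; exact rn0_eq _ _ _
  | cons v l ih => intro A; simp only [rnL, runL, frc_eq, ih, rn0_eq]

/-- the lowest bit -/
def low (A : ℕ) : ℕ :=
  (0x10610787bc41f893f879134d0358bb2864e39fd58146ea1543d1b5e8cff6cda3ab299e4f743bf7f6ca817fce32ab6cb2544aba916e36fad8e06006dc7a778a4d35e3cd5cd14e775f4cd261e3af89ff31b49149018b00053bdd9e2ac4ee4b2ee5330463d584ed8494a70bc703c1257029004000 >>> (7 * ((A ^^^ (A &&& (A - 1))) % 131))) % 128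

def fnd (p : ℕ → Bool) : ℕ → ℕ → ℕ → ℕ
  | 0, _, d => d
  | n + 1, B, d => frc B fun B => bif Nat.beq B 0 then d else frc (low B) fun v =>
      bif p v then v else fnd p n (B ^^^ 2 ^ v) d

def pk1 (A : ℕ) : ℕ :=
  fnd (fun v => frc (A &&& mk v) fun B => !Nat.beq B 0 && Nat.beq (B &&& (B - 1)) 0) 116 A (low A)

def pk2 (A : ℕ) : ℕ := fnd (fun v => Nat.beq (rn0 pk1 20 (A &&& mk v)) 0) 116 A (low A)

def TL : List ℕ := [31, 73, 105, 115, 114, 113, 112, 111, 110, 109, 108, 107, 106, 104, 103, 102,
  101, 100, 99, 98, 97, 96, 95, 94, 93, 92, 91, 90, 89, 88, 87, 86, 85, 84, 83, 82, 81, 80, 79, 78,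
  77, 76, 75, 74, 72, 71, 70, 69, 68, 67, 66, 65, 64, 63, 62, 61, 60, 59, 58, 57, 56, 55, 54, 53, 52,
  51, 50, 49, 48, 47, 46, 45, 44, 43, 42, 41, 40, 39, 38, 37, 36, 35, 34, 33, 32, 28, 27, 26, 25, 24,
  23, 22, 21, 20, 18, 17, 16, 14, 30, 19, 15, 11, 29, 13, 12, 9, 10, 5, 8, 7, 6, 3]

/-- the number of critical cells -/
def rn (k : ℕ) (t : List ℕ) (A : ℕ) : ℕ :=
  rnL (bif Nat.ble 2 t.length then pk1 else pk2) 40 (bif k == 15 && t.isEmpty then TL else []) A

/-- the flip test -/
def flp (k M : ℕ) (t : List ℕ) (s : ℕ) : Bool :=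
  frc (lk M (t.erase s)) fun A =>
  bif cm (t.erase s) == k then
    frc (A ^^^ 2 ^ s) fun B => B == 2 ^ low B && Nat.blt (low B) s
  else A == 2 ^ s

/-- the test for one clique -/
def ok (k M W n : ℕ) (t : List ℕ) : Bool :=
  frc (lk M t) fun A => frc (cm t) fun c => frc t.length fun l =>
  Nat.ble l (pc c) && (Nat.ble n l || !(A == 0)) &&
    Nat.ble (rn k t A) (bif c == k then 1 else 0) &&
    (Nat.blt l n || t.isEmpty || t.any (flp k M t)) &&
    (t.isEmpty || t.any fun i => sm i == c) &&
    (c == k || Nat.ble (rn0 pk2 40 (A &&& W)) 1)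

/-- conjunction over the bits of a mask -/
def bts (p : ℕ → Bool) : ℕ → ℕ → Bool
  | 0, B => B == 0
  | n + 1, B => frc B fun B => bif B == 0 then true else frc (low B) fun v =>
      p v && bts p n (B ^^^ 2 ^ v)

/-- loop over all cliques -/
def lp (f : List ℕ → Bool) : ℕ → List ℕ → ℕ → Bool
  | 0, t, B => B == 0 && f t
  | d + 1, t, B => frc B fun B =>
      f t && bts (fun v => lp f d (v :: t) ((B &&& mk v) % 2 ^ v)) 116 B

theorem chkA : (R.all fun i => Nat.blt (sm i) 16 &&
    (List.range 4).all fun t => (sm i).testBit t == (dg (cd i) t != 0)) = true := by decide +kernel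

theorem chkB : ((List.range 16).all fun k => Nat.blt (MM k) (2 ^ 116) &&
    R.all fun i => (MM k).testBit i == (sm i &&& k == sm i)) = true := by decide +kernel

theorem chkD : ((List.range 16).all fun k => Nat.blt (BM k) (2 ^ 116) &&
    R.all fun i => (BM k).testBit i == (sm i &&& k == sm i && sm i != k)) = true := by
  decide +kernel

/-- the test of the face `k` -/
def okk (k : ℕ) : List ℕ → Bool := ok k (MM k) (BM k) (pc k)

theorem chkC : ((List.range 15).all fun k => lp (okk k) 4 [] (MM k)) = true := by decide +kernel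

theorem chkE : okk 15 [] = true := by decide +kernel

/-- the cliques with largest vertex in `4 j, …, 4 j + 3` -/
def ch (j : ℕ) : Bool := (List.range 4).all fun i => frc (4 * j + i) fun v =>
  lp (okk 15) 3 [v] ((MM 15 &&& mk v) % 2 ^ v)

theorem ch0 : ch 0 = true := by decide +kernel
theorem ch1 : ch 1 = true := by decide +kernel
theorem ch2 : ch 2 = true := by decide +kernel
theorem ch3 : ch 3 = true := by decide +kernel
theorem ch4 : ch 4 = true := by decide +kernel
theorem ch5 : ch 5 = true := by decide +kernel
theorem ch6 : ch 6 = true := by decide +kernel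
theorem ch7 : ch 7 = true := by decide +kernel
theorem ch8 : ch 8 = true := by decide +kernel
theorem ch9 : ch 9 = true := by decide +kernel
theorem ch10 : ch 10 = true := by decide +kernel
theorem ch11 : ch 11 = true := by decide +kernel
theorem ch12 : ch 12 = true := by decide +kernel
theorem ch13 : ch 13 = true := by decide +kernel
theorem ch14 : ch 14 = true := by decide +kernel
theorem ch15 : ch 15 = true := by decide +kernel
theorem ch16 : ch 16 = true := by decide +kernel
theorem ch17 : ch 17 = true := by decide +kernel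
theorem ch18 : ch 18 = true := by decide +kernel
theorem ch19 : ch 19 = true := by decide +kernel
theorem ch20 : ch 20 = true := by decide +kernel
theorem ch21 : ch 21 = true := by decide +kernel
theorem ch22 : ch 22 = true := by decide +kernel
theorem ch23 : ch 23 = true := by decide +kernel
theorem ch24 : ch 24 = true := by decide +kernel
theorem ch25 : ch 25 = true := by decide +kernel
theorem ch26 : ch 26 = true := by decide +kernel
theorem ch27 : ch 27 = true := by decide +kernel
theorem ch28 : ch 28 = true := by decide +kernel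

theorem chkF {v : ℕ} (h : v < 116) : lp (okk 15) 3 [v] ((MM 15 &&& mk v) % 2 ^ v) = true := by
  have k : ∀ j < 29, ch j = true := fun j hj => by
    interval_cases j
    exacts [ch0, ch1, ch2, ch3, ch4, ch5, ch6, ch7, ch8, ch9, ch10, ch11, ch12, ch13, ch14, ch15, ch16, ch17, ch18, ch19, ch20, ch21, ch22, ch23, ch24, ch25, ch26, ch27, ch28]
  have := List.all_eq_true.1 (k (v / 4) (by omega)) (v % 4) (List.mem_range.2 (by omega))
  rwa [frc_eq, Nat.div_add_mod] at this

end Crest.Agent.N233.Lo
private theorem rz_c2296bbc01 : type_of% @_root_.Crest.Agent.N233.Lo.bts.eq_def := @_root_.Crest.Agent.N233.Lo.bts.eq_def -- L106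
private theorem rz_f08f5a2c5f : type_of% @_root_.Crest.Agent.N233.Lo.bts.eq_1 := @_root_.Crest.Agent.N233.Lo.bts.eq_1 -- L106
private theorem rz_d8437c9c53 : type_of% @_root_.Crest.Agent.N233.Lo.lp.eq_def := @_root_.Crest.Agent.N233.Lo.lp.eq_def -- L112
private theorem rz_00744aa36a : type_of% @_root_.Crest.Agent.N233.Lo.lp.eq_1 := @_root_.Crest.Agent.N233.Lo.lp.eq_1 -- L112
private theorem rz_a497bc1132 : type_of% @_root_.Crest.Agent.N233.Lo.rn0.eq_def := @_root_.Crest.Agent.N233.Lo.rn0.eq_def -- L42
private theorem rz_9402aac64c : type_of% @_root_.Crest.Agent.N233.Lo.rn0.eq_1 := @_root_.Crest.Agent.N233.Lo.rn0.eq_1 -- L42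
private theorem rz_54a6b6ae12 : type_of% @_root_.Crest.Agent.N233.Lo.rnL.eq_def := @_root_.Crest.Agent.N233.Lo.rnL.eq_def -- L55
private theorem rz_9f45c7fdd9 : type_of% @_root_.Crest.Agent.N233.Lo.rnL.eq_1 := @_root_.Crest.Agent.N233.Lo.rnL.eq_1 -- L55
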