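import Crest.Agent.N233.Pb.Ix

/-!
# Row 233 (helper81): the mirror model of the subdivision and of a finite index subgroup
-/

set_option autoImplicit false

noncomputable section

namespace Crest.Agent.N233.Lo

open Crest.Agent.N255 Crest.Agent.N233.PS Finsupp Set
open Pb (Pr ix ix_pm mem_cr)

attribute [local irreducible] Pb.ixc

/-! ### graphs -/

section graph

variable {S S' K : Type} {Γ : SimpleGraph S} {Γ' : SimpleGraph S'}

/-- the vertices of the subdivision of the clique complex -/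
abbrev PG (Γ : SimpleGraph S) : Type := PV Γ.IsClique

/-- the subdivision of the clique complex -/
abbrev psG (Γ : SimpleGraph S) : SimpleGraph (PG Γ) := ps Γ.IsClique

theorem nd_emb (j : S → S') (hj : Function.Injective j) (h : ∀ x y, Γ.Adj x y → Γ'.Adj (j x) (j y)) :
    Nd Γ.IsClique Γ'.IsClique j := fun s hs => ⟨hj.injOn, by
  rintro _ ⟨a, ha, rfl⟩ _ ⟨b, hb, rfl⟩ n
  exact h a b (hs ha hb fun e => n (e ▸ rfl))⟩

theorem nd_iso (e : Γ ≃g Γ') : Nd Γ.IsClique Γ'.IsClique e :=
  nd_emb e e.injective fun _ _ h => e.map_adj_iff.2 h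

/-- the isomorphism of the subdivisions induced by an isomorphism of graphs -/
def psIso (e : Γ ≃g Γ') : psG Γ ≃g psG Γ' := pmIso e.toEquiv (nd_iso e) (nd_iso e.symm)



theorem car_psIso (e : Γ ≃g Γ') (a : PG Γ) : car (psIso e a) = e '' car a := car_pm (nd_iso e) a

/-- automorphisms of a graph act on the subdivision -/
def psAut (Γ : SimpleGraph S) : (Γ ≃g Γ) →* (psG Γ ≃g psG Γ) :=
  MonoidHom.mk' psIso fun e e' => RelIso.ext fun a =>
    PV.ext (mapDomain_comp (v := a.1) (f := e') (g := e))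


theorem finite_star (U : Finset S) : {a : PG Γ | car a ⊆ U}.Finite := by
  refine Set.Finite.of_finite_image (f := fun a : PG Γ => fun v : U => a.1 v) (toFinite _) ?_
  intro a ha b hb e
  refine PV.ext (Finsupp.ext fun v => ?_)
  by_cases hv : v ∈ U
  · exact congrFun e ⟨v, hv⟩
  · have h1 : a.1 v = 0 := by_contra fun n => hv (ha (mem_car.2 n))
    have h2 : b.1 v = 0 := by_contra fun n => hv (hb (mem_car.2 n))
    rw [h1, h2]

/-- the vertices of the subdivision carried by `U` -/
def st (Γ : SimpleGraph S) (U : Finset S) : Finset (PG Γ) := (finite_star (Γ := Γ) U).toFinset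

@[simp] theorem mem_st {U : Finset S} {a : PG Γ} : a ∈ st Γ U ↔ car a ⊆ U := by simp [st]

theorem mem_st' {U : Finset S} {a : PG Γ} : a ∈ st Γ U ↔ a.1.support ⊆ U := by
  rw [mem_st, car, Finset.coe_subset]



theorem st_image [DecidableEq S'] [DecidableEq (PG Γ')] (e : Γ ≃g Γ') (U : Finset S) :
    st Γ' (U.image e) = (st Γ U).image (psIso e) := by
  ext a
  obtain ⟨a, rfl⟩ := (psIso e).surjective a
  rw [(psIso e).injective.mem_finset_image, mem_st, mem_st, car_psIso, Finset.coe_image,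
    image_subset_image_iff e.injective]

section cr

variable [DecidableEq S]

theorem car_le_cr {t : Finset (PG Γ)} {a : PG Γ} (h : a ∈ t) : car a ⊆ Pb.cr t :=
  fun _ hv => mem_cr.2 ⟨a, h, hv⟩

theorem cr_sub_iff {t : Finset (PG Γ)} {U : Finset S} : Pb.cr t ⊆ U ↔ t ⊆ st Γ U := by
  simp only [Pb.cr, Finset.biUnion_subset, ← mem_st']
  rfl



/-- a clique of the subdivision has at most as many vertices as its carrier -/
theorem card_le_cr {t : Finset (PG Γ)} (ht : (psG Γ).IsClique t) :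
    t.card ≤ (Pb.cr t).card := by
  have h := indep (ι := t) (a := fun b => b.1.1) (fun b => b.1.2.2)
    fun b c hbc => (ht b.2 c.2 fun e => hbc (Subtype.ext e)).2
  let L : ((Pb.cr t) → ℝ) →ₗ[ℝ] (S → ℝ) :=
    { toFun := fun y v => if hv : v ∈ Pb.cr t then y ⟨v, hv⟩ else 0
      map_add' := fun y z => by ext v; by_cases hv : v ∈ Pb.cr t <;> simp [hv]
      map_smul' := fun r y => by ext v; by_cases hv : v ∈ Pb.cr t <;> simp [hv] }
  have h2 : LinearIndependent ℝ fun b : t => fun v : Pb.cr t => pos b.1.1 v := by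
    refine LinearIndependent.of_comp L ?_
    convert h using 1
    ext b v
    by_cases hv : v ∈ Pb.cr t
    · simp [L, hv]
    · have : b.1.1 v = 0 := by_contra fun n => hv (mem_cr.2 ⟨b.1, b.2, mem_car.2 n⟩)
      simp [L, hv, pos, this]
  simpa using h2.fintype_card_le_finrank

end cr

/-! ### the vertex map -/

section ap

variable [LinearOrder K] {X : Set S → Prop}

theorem exists_ap (col : S → K) (a : PV X) : ∃ v ∈ car a, ∀ u ∈ car a, col v ≤ col u :=
  Set.exists_min_image _ col (car_finite a) (car_nonempty a)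

/-- the vertex of least colour of the carrier -/
def ap (col : S → K) (a : PV X) : S := (exists_ap col a).choose

theorem ap_mem (col : S → K) (a : PV X) : ap col a ∈ car a := (exists_ap col a).choose_spec.1

theorem ap_le (col : S → K) (a : PV X) {u : S} (h : u ∈ car a) : col (ap col a) ≤ col u :=
  (exists_ap col a).choose_spec.2 u h

theorem ap_eq {col : S → K} {a : PV X} (hc : InjOn col (car a)) {v : S} (h : v ∈ car a)
    (hv : ∀ u ∈ car a, col v ≤ col u) : ap col a = v :=
  hc (ap_mem col a) h (le_antisymm (ap_le col a h) (hv _ (ap_mem col a)))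


theorem ap_pm {Y : Set S' → Prop} {col : S → K} {col' : S' → K} {j : S → S'} (hj : Nd X Y j)
    (hc : ∀ v, col' (j v) = col v) (a : PV X) (h : InjOn col' (car (pm hj a))) :
    ap col' (pm hj a) = j (ap col a) := by
  refine ap_eq h (by rw [car_pm]; exact ⟨_, ap_mem col a, rfl⟩) fun u hu => ?_
  rw [car_pm] at hu
  obtain ⟨u, hu, rfl⟩ := hu
  rw [hc, hc]
  exact ap_le col a hu

omit [LinearOrder K] in
theorem injOn_col {col : S → K} (h : ∀ s t, Γ.Adj s t → col s ≠ col t) {A : Set S}
    (hA : Γ.IsClique A) : InjOn col A := fun a ha b hb e => by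
  by_contra n
  exact h a b (hA ha hb n) e


/-- the vertex map is simplicial -/
theorem ap_adj (col : S → K) {a b : PG Γ} (h : (psG Γ).Adj a b) :
    ap col a = ap col b ∨ Γ.Adj (ap col a) (ap col b) :=
  or_iff_not_imp_left.2 fun n => h.1 (Or.inl (ap_mem col a)) (Or.inr (ap_mem col b)) n

theorem ap_cl (col : S → K) {a b : PG Γ} (h : a = b ∨ (psG Γ).Adj a b) :
    ap col a = ap col b ∨ Γ.Adj (ap col a) (ap col b) :=
  h.elim (fun e => Or.inl (e ▸ rfl)) (ap_adj col)

end ap

end graph

/-! ### mirror models -/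

instance (priority := low) decPV {V : Type} {X : Set V → Prop} : DecidableEq (PV X) :=
  Classical.decEq _

variable {S K F Nd Ed : Type} [DecidableEq S] [Group F] [MulAction F Nd] [MulAction F Ed]

theorem mir_clB (M : Ce.Mir S K F Nd Ed) : Hyp.ClB M.Γ 4 := fun τ h => by
  obtain ⟨R, hR⟩ := M.root τ h
  exact M.dimN R.o τ h fun s hs => (hR s hs).1

theorem mir_cx (M : Ce.Mir S K F Nd Ed) : Cx M.Γ.IsClique := cx_clique (mir_clB M)

theorem mir_pr (M : Ce.Mir S (Fin 4) F Nd Ed) : Pr M.Γ M.col := M.col_ne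

/-- **the mirror model of the subdivision** -/
def mps (M : Ce.Mir S (Fin 4) F Nd Ed) : Ce.Mir (PG M.Γ) (Fin 116) F Nd Ed where
  Γ := psG M.Γ
  col := ix M.col
  col_ne := (mir_pr M).ix_ne
  ρ := (psAut M.Γ).comp M.ρ
  col_ρ f a := ix_pm (nd_iso (M.ρ f)) a fun v _ => M.col_ρ f v
  src := M.src
  tgt := M.tgt
  src_smul := M.src_smul
  tgt_smul := M.tgt_smul
  ty := M.ty
  ty_smul := M.ty_smul
  ty_src := M.ty_src
  ty_tgt := M.ty_tgt
  free := M.free
  finN := M.finN
  finE := M.finE
  sp n := st M.Γ (M.sp n)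
  sp_smul f n := by
    rw [M.sp_smul, st_image]
    rfl
  root τ h := by
    obtain ⟨R, hR⟩ := M.root (Pb.cr τ) ((mir_pr M).cr_clique h)
    exact ⟨R, fun a ha => ⟨mem_st.2 fun v hv => (hR v (car_le_cr ha hv)).1,
      fun e he => mem_st.2 fun v hv => (hR v (car_le_cr ha hv)).2 e (mem_st.1 he hv)⟩⟩
  dimN _ τ h _ := card_le (mir_cx M) τ h
  dimE e τ h a b := (card_le_cr h).trans
    (M.dimE e _ ((mir_pr M).cr_clique h) (cr_sub_iff.2 a) (cr_sub_iff.2 b))

section lemmas

variable (M : Ce.Mir S (Fin 4) F Nd Ed)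

@[simp] theorem mps_Γ : (mps M).Γ = psG M.Γ := rfl
@[simp] theorem mps_col : (mps M).col = ix M.col := rfl
@[simp] theorem mps_src : (mps M).src = M.src := rfl
@[simp] theorem mps_tgt : (mps M).tgt = M.tgt := rfl
@[simp] theorem mps_ty : (mps M).ty = M.ty := rfl
@[simp] theorem mps_sp (n : Nd) : (mps M).sp n = st M.Γ (M.sp n) := rfl



theorem car_mps (f : F) (a : PG M.Γ) : car ((mps M).ρ f a) = M.ρ f '' car a := car_psIso _ a



end lemmas

theorem fin_res {X : Type} [MulAction F X] (H : Subgroup F) [H.FiniteIndex]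
    (h : ∃ A : Set X, A.Finite ∧ ∀ t, ∃ f : F, f • t ∈ A) :
    ∃ A : Set X, A.Finite ∧ ∀ t, ∃ f : H, f • t ∈ A := by
  obtain ⟨A, hA, h⟩ := h
  refine ⟨⋃ q : F ⧸ H, (fun a => (q.out)⁻¹ • a) '' A, finite_iUnion fun q => hA.image _, fun t => ?_⟩
  obtain ⟨f, hf⟩ := h t
  obtain ⟨k, hk⟩ := QuotientGroup.mk_out_eq_mul H f
  refine ⟨k⁻¹, mem_iUnion.2 ⟨(f : F ⧸ H), _, hf, ?_⟩⟩
  simp only [hk, smul_smul, Subgroup.smul_def]
  congr 1
  simp

/-- **the mirror model of a finite index subgroup** -/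
def mres (M : Ce.Mir S K F Nd Ed) (H : Subgroup F) [H.FiniteIndex] : Ce.Mir S K H Nd Ed where
  Γ := M.Γ
  col := M.col
  col_ne := M.col_ne
  ρ := M.ρ.comp H.subtype
  col_ρ f := M.col_ρ f
  src := M.src
  tgt := M.tgt
  src_smul f := M.src_smul f
  tgt_smul f := M.tgt_smul f
  ty := M.ty
  ty_smul f := M.ty_smul f
  ty_src := M.ty_src
  ty_tgt := M.ty_tgt
  free f t h := Subtype.ext (M.free f t h)
  finN := fin_res H M.finN
  finE := fin_res H M.finE
  sp := M.sp
  sp_smul f := M.sp_smul f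
  root := M.root
  dimN := M.dimN
  dimE := M.dimE

section lemmas

variable (M : Ce.Mir S K F Nd Ed) (H : Subgroup F) [H.FiniteIndex]

@[simp] theorem mres_Γ : (mres M H).Γ = M.Γ := rfl
@[simp] theorem mres_col : (mres M H).col = M.col := rfl
@[simp] theorem mres_src : (mres M H).src = M.src := rfl
@[simp] theorem mres_tgt : (mres M H).tgt = M.tgt := rfl
@[simp] theorem mres_ty : (mres M H).ty = M.ty := rfl
@[simp] theorem mres_sp : (mres M H).sp = M.sp := rfl


end lemmas

variable [LinearOrder K]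


variable [DecidableEq Ed]


end Crest.Agent.N233.Lo
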