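import Crest.Agent.N233.Lo.NeB

/-!
# Row 233 (helper80): half links in the subdivision are non-evasive
-/

set_option autoImplicit false
open Set Finsupp

noncomputable section

namespace Crest.Agent.N233.Ne

open N255.Nv PS

variable {V : Type} {X : Set V → Prop}

/-- equal or adjacent -/
def Rc {I : Type} (G : SimpleGraph I) (a b : I) : Prop := a = b ∨ G.Adj a b

open Classical in
/-- the number of a vertex in the block -/
def ix (p : V → Fin 4) (b : PV X) : ℕ := if h : ∃ i ∈ PS.R, vt i = mapDomain p b.1 then h.choose else 0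

open Classical in
/-- the mask of a face -/
def mu (p : V → Fin 4) (K : Set V) : ℕ := enc fun t => decide (t ∈ p '' K)

theorem mu_16 (p : V → Fin 4) (K : Set V) : mu p K < 16 := enc_lt _

section chart
variable {p : V → Fin 4} {ρ K L : Set V} (hp : InjOn p ρ) {a b : PV X}
include hp

theorem ix_spec (hb : car b ⊆ ρ) : ix p b ∈ PS.R ∧ vt (ix p b) = mapDomain p b.1 := by
  have h := exists_vt ((vx_map (hp.mono hb)).2 b.2.2)
  rw [ix, dif_pos h]
  exact h.choose_spec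

theorem ix_ne (hb : car b ⊆ ρ) (t : Fin 4) : vt (ix p b) t ≠ 0 ↔ t ∈ p '' car b := by
  rw [(ix_spec hp hb).2, car, ← supp_map (hp.mono hb), Finset.mem_coe, mem_support_iff]

theorem ix_inj : InjOn (ix (X := X) p) {b | car b ⊆ ρ} := fun a ha b hb e =>
  PV.ext (map_inj hp ha hb (by rw [← (ix_spec hp ha).2, e, (ix_spec hp hb).2]))

theorem ix_ad (hX : Cx X) (hρ : X ρ) (ha : car a ⊆ ρ) (hb : car b ⊆ ρ) :
    ad (ix p a) (ix p b) = true ↔ (ps X).Adj a b := by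
  rw [← ad_vt (ix_spec hp ha).1 (ix_spec hp hb).1, (ix_spec hp ha).2, (ix_spec hp hb).2, ad_map hp ha hb]
  exact ⟨adj_of_ad hX hρ ha hb, fun h => h.2⟩

theorem ix_rb (hX : Cx X) (hρ : X ρ) (ha : car a ⊆ ρ) (hb : car b ⊆ ρ) :
    Rb (ix p a) (ix p b) ↔ Rc (ps X) a b :=
  or_congr ((ix_inj hp).eq_iff ha hb) (ix_ad hp hX hρ ha hb)

theorem ix_um (hK : K ⊆ ρ) (hb : car b ⊆ ρ) : (Um (mu p K)).testBit (ix p b) = true ↔ car b ⊆ K := by
  rw [mu, um_bit, ← hp.image_subset_image_iff hb hK]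
  simp only [ix_ne hp hb, decide_eq_true_eq, mem_R.1 (ix_spec hp hb).1, true_and]
  rfl

theorem ix_vm (hK : K ⊆ ρ) (hb : car b ⊆ ρ) : (Vm (mu p K)).testBit (ix p b) = true ↔ K ⊆ car b := by
  rw [mu, vm_bit _ (mem_R.1 (ix_spec hp hb).1), ← hp.image_subset_image_iff hK hb]
  simp only [ix_ne hp hb, decide_eq_true_eq]
  rfl

theorem ix_sur (hX : Cx X) (hρ : X ρ) {i : ℕ} (h : (Um (mu p ρ)).testBit i = true) :
    ∃ b : PV X, car b ⊆ ρ ∧ ix p b = i := by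
  rw [mu, um_bit] at h
  have hi := mem_R.2 h.1
  obtain ⟨x, hx, e⟩ := exists_map (y := vt i) hp fun t ht => by simpa using h.2 t (by simpa using ht)
  have hv : Vx x := (vx_map (hp.mono hx)).1 (e ▸ vx_vt hi)
  refine ⟨⟨x, hX.down hx hρ, hv⟩, hx, ?_⟩
  have := ix_spec (X := X) (b := ⟨x, hX.down hx hρ, hv⟩) hp hx
  exact vt_inj this.1 hi (this.2.trans e)

theorem mu_ne (hL : L ⊆ ρ) (h : K ⊂ L) : (fun t => by classical exact decide (t ∈ p '' K)) ≠
    fun t => by classical exact decide (t ∈ p '' L) := fun e => by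
  refine h.2 ((hp.image_subset_image_iff hL (h.1.trans hL)).1 fun t ht => ?_)
  simpa [show t ∈ p '' L from ht] using congrFun e t

theorem mu_lt (hL : L ⊆ ρ) (h : K ⊂ L) : lt4 (mu p K) (mu p L) = true ∧ mu p K < 15 :=
  enc_lt4 _ _ (fun t ht => by
    simp only [decide_eq_true_eq] at ht ⊢
    exact image_mono h.1 ht) (mu_ne hp hL h)

theorem mu_cov {y : V} (hL : insert y K ⊆ ρ) (h : y ∉ K) : cov (mu p K) (mu p (insert y K)) = true :=
  enc_cov _ _ (p y) (fun t ht => by simp [image_insert_eq, ht]) (mu_ne hp hL (ssubset_insert h))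

theorem pull_im (hX : Cx X) (hρ : X ρ) {A : ℕ} {T : Set (PV X)} (hA : Ms A ⊆ Ms (Um (mu p ρ)))
    (hT : ∀ b, b ∈ T ↔ car b ⊆ ρ ∧ ix p b ∈ Ms A) : ix p '' T = Ms A := by
  refine Subset.antisymm (by rintro _ ⟨b, hb, rfl⟩; exact ((hT b).1 hb).2) fun i hi => ?_
  obtain ⟨b, hb, rfl⟩ := ix_sur hp hX hρ (hA hi)
  exact ⟨b, (hT b).2 ⟨hb, hi⟩, rfl⟩

theorem pull_nv (hX : Cx X) (hρ : X ρ) {A : ℕ} {T : Set (PV X)} (hA : Ms A ⊆ Ms (Um (mu p ρ)))
    (hT : ∀ b, b ∈ T ↔ car b ⊆ ρ ∧ ix p b ∈ Ms A) (h : NV Rb (Ms A)) : NV (Rc (ps X)) T :=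
  h.imp fun _ h => nev_pull ((ix_inj hp).mono fun b hb => ((hT b).1 hb).1)
    (fun a ha b hb => ix_rb hp hX hρ ((hT a).1 ha).1 ((hT b).1 hb).1) (by rwa [pull_im hp hX hρ hA hT])

theorem pull_rm (hX : Cx X) (hρ : X ρ) {A : ℕ} {T : Set (PV X)} (hA : Ms A ⊆ Ms (Um (mu p ρ)))
    (hT : ∀ b, b ∈ T ↔ car b ⊆ ρ ∧ ix p b ∈ Ms A) (hK : K ⊆ ρ) (h : rm A (Vm (mu p K)) = true) :
    Red (Rc (ps X)) T {b ∈ T | ¬K ⊆ car b} := by
  convert red_pull (rm_sound h) ((ix_inj hp).mono fun b hb => ((hT b).1 hb).1)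
    (fun a ha b hb => ix_rb hp hX hρ ((hT a).1 ha).1 ((hT b).1 hb).1) (pull_im hp hX hρ hA hT) using 1
  ext b
  refine and_congr_right fun hb => ?_
  rw [← ix_vm hp hK ((hT b).1 hb).1]
  exact ⟨fun c => ⟨((hT b).1 hb).2, c⟩, fun c => c.2⟩

end chart


/-- the vertices adjacent to `s`, carried by `ρ` and not by `π` -/
def Hf (s : Finset (PV X)) (ρ π : Set V) : Set (PV X) :=
  {b | (∀ a ∈ s, (ps X).Adj a b) ∧ car b ⊆ ρ ∧ ¬car b ⊆ π}

/-- a clique with top vertex `a` -/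
structure Tp (s : Finset (PV X)) (a : PV X) : Prop where
  mem : a ∈ s
  top : ∀ b ∈ s, car b ⊆ car a
  clq : (ps X).IsClique s

section blk
variable (hX : Cx X) {s : Finset (PV X)} {a : PV X} (h : Tp s a)
include hX h

theorem Tp.blk {ρ : Set V} (hρ : X ρ) (hl : car a ⊂ ρ) : ∃ (p : V → Fin 4) (D : ℕ), InjOn p ρ ∧
    chk (mu p (car a)) D = true ∧ ∀ π ⊆ ρ, Ms (dif (D &&& Um (mu p ρ)) (Um (mu p π))) ⊆ Ms (Um (mu p ρ)) ∧
      ∀ b, b ∈ Hf s ρ π ↔ car b ⊆ ρ ∧ ix p b ∈ Ms (dif (D &&& Um (mu p ρ)) (Um (mu p π))) := by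
  classical
  obtain ⟨p, hp⟩ := hX.dim hρ
  have hs : ∀ b ∈ s, car b ⊆ ρ := fun b hb => (h.top b hb).trans hl.1
  have h1 := al_iff.1 (al_iff.1 chk_all _ (mu_lt hp Subset.rfl hl).2) _ (mem_R.1 (ix_spec hp hl.1).1)
  rw [Nat.testBit_and, (ix_um hp hl.1 hl.1).2 Subset.rfl, (ix_vm hp hl.1 hl.1).2 Subset.rfl] at h1
  obtain ⟨D, h2, h3⟩ := alC_sound 3 _ ((s.erase a).image (ix p)) h1 (Finset.card_image_le.trans (by
    have := card_le hX s h.clq
    rw [Finset.card_erase_of_mem h.mem]; omega)) (by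
    simp only [Finset.forall_mem_image, Finset.mem_erase]
    rintro b ⟨e, hb⟩
    refine ⟨mem_R.1 (ix_spec hp (hs b hb)).1, ?_, fun c hc n => (ix_ad hp hX hρ (hs b hb) (hs c hc.2)).2
      (h.clq hb hc.2 fun e => n (e ▸ rfl))⟩
    rw [Nat.testBit_and, Bool.and_eq_true]
    exact ⟨(ix_ad hp hX hρ hl.1 (hs b hb)).2 (h.clq h.mem hb (Ne.symm e)),
      (ix_um hp hl.1 (hs b hb)).2 (h.top b hb)⟩)
  refine ⟨p, D, hp, h2, fun π hπ => ⟨fun i hi => ?_, fun b => ?_⟩⟩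
  · have := ((dif_bit _ _ _).1 hi).1
    rw [Nat.testBit_and, Bool.and_eq_true] at this
    exact this.2
  · rw [Hf, mem_ofPred_eq, and_left_comm]
    refine and_congr_right fun hb => ?_
    rw [Ms, mem_ofPred_eq, dif_bit, Nat.testBit_and, Bool.and_eq_true, h3, ix_um hp hπ hb,
      ix_um hp Subset.rfl hb, and_iff_left hb]
    refine and_congr_left' ?_
    simp only [Finset.forall_mem_image, Finset.mem_erase]
    refine ⟨fun k => ⟨(ix_ad hp hX hρ hl.1 hb).2 (k a h.mem), fun c hc =>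
      (ix_ad hp hX hρ (hs c hc.2) hb).2 (k c hc.2)⟩, fun k c hc => ?_⟩
    by_cases e : c = a
    · exact e ▸ (ix_ad hp hX hρ hl.1 hb).1 k.1
    · exact (ix_ad hp hX hρ (hs c hc) hb).1 (k.2 ⟨e, hc⟩)

theorem Tp.one {y : V} (hρ : X (insert y (car a))) (hy : y ∉ car a) :
    NV (Rc (ps X)) (Hf s (insert y (car a)) (car a)) := by
  obtain ⟨p, D, hp, c, k⟩ := Tp.blk hX h hρ (ssubset_insert hy)
  have := al_iff.1 c _ (mu_16 p (insert y (car a)))
  rw [(mu_lt hp Subset.rfl (ssubset_insert hy)).1, mu_cov hp Subset.rfl hy] at this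
  simp only [Bool.not_true, Bool.false_or, Bool.and_eq_true] at this
  exact pull_nv hp hX hρ (k _ (subset_insert _ _)).1 (k _ (subset_insert _ _)).2 (nq_sound _ _ this.1)

theorem Tp.mix {π ρ : Set V} (hρ : X ρ) (h1 : car a ⊂ π) (h2 : π ⊂ ρ) :
    Red (Rc (ps X)) (Hf s ρ π) {b ∈ Hf s ρ π | ¬ρ ⊆ car b} := by
  obtain ⟨p, D, hp, c, k⟩ := Tp.blk hX h hρ (h1.trans h2)
  have := al_iff.1 c _ (mu_16 p ρ)
  rw [(mu_lt hp Subset.rfl (h1.trans h2)).1, Bool.not_true, Bool.false_or, Bool.and_eq_true] at this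
  have := al_iff.1 this.2 _ (mu_16 p π)
  rw [(mu_lt hp h2.1 h1).1, (mu_lt hp Subset.rfl h2).1] at this
  simp only [Bool.not_true, Bool.false_or, Bool.and_eq_true] at this
  exact pull_rm hp hX hρ (k _ h2.1).1 (k _ h2.1).2 Subset.rfl this.1

theorem Tp.two {η : Set V} {y : V} (hρ : X (insert y η)) (h1 : car a ⊂ η) (hy : y ∉ η) :
    Red (Rc (ps X)) (Hf s (insert y η) (car a)) {b ∈ Hf s (insert y η) (car a) | ¬η ⊆ car b} := by
  have h2 := ssubset_insert hy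
  obtain ⟨p, D, hp, c, k⟩ := Tp.blk hX h hρ (h1.trans h2)
  have := al_iff.1 c _ (mu_16 p (insert y η))
  rw [(mu_lt hp Subset.rfl (h1.trans h2)).1, Bool.not_true, Bool.false_or, Bool.and_eq_true] at this
  have := al_iff.1 this.2 _ (mu_16 p η)
  rw [(mu_lt hp h2.1 h1).1, (mu_lt hp Subset.rfl h2).1, mu_cov hp Subset.rfl hy] at this
  simp only [Bool.not_true, Bool.false_or, Bool.and_eq_true] at this
  exact pull_rm hp hX hρ (k _ (h1.trans h2).1).1 (k _ (h1.trans h2).1).2 h2.1 this.2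

theorem Tp.sub {ρ π : Set V} {b : PV X} (hb : b ∈ Hf s ρ π) (hπ : car a ⊆ π) : car a ⊆ car b :=
  (car_nest hX (hb.1 a h.mem)).resolve_right fun c => hb.2.2 (c.trans hπ)

omit h in
theorem rc_nest {v w : PV X} (r : Rc (ps X) v w) : car v ⊆ car w ∨ car w ⊆ car v :=
  r.elim (fun e => e ▸ Or.inl Subset.rfl) (car_nest hX)

end blk

/-- removal of the vertices over an upward closed family of faces -/
theorem red_faces (hX : Cx X) (Mx : Set V → Prop) (hM : ∀ ρ ρ', ρ ⊆ ρ' → Mx ρ → Mx ρ') (n : ℕ) :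
    ∀ A : Set (PV X), A.Finite → {b ∈ A | Mx (car b)}.ncard ≤ n →
    (∀ v ∈ A, Mx (car v) → Red (Rc (ps X)) {b ∈ A | car b ⊆ car v}
      {b ∈ {b ∈ A | car b ⊆ car v} | ¬car v ⊆ car b}) → Red (Rc (ps X)) A {b ∈ A | ¬Mx (car b)} := by
  have z : ∀ A : Set (PV X), {b ∈ A | Mx (car b)} = ∅ → Red (Rc (ps X)) A {b ∈ A | ¬Mx (car b)} :=
    fun A e => by
      rw [sep_eq_self_iff_mem_true.2 fun b hb c => eq_empty_iff_forall_notMem.1 e b ⟨hb, c⟩]
      exact .refl A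
  induction n with
  | zero => exact fun A hA hn _ => z A ((ncard_eq_zero (hA.sep _)).1 (Nat.le_zero.1 hn))
  | succ n ih =>
    intro A hA hn k
    rcases {b ∈ A | Mx (car b)}.eq_empty_or_nonempty with e | ne
    · exact z A e
    obtain ⟨v, hv, mx⟩ := (hA.sep fun b => Mx (car b)).exists_maximalFor (fun a => a.1.support.card) _ ne
    have top : ∀ w ∈ A, car v ⊆ car w → car w ⊆ car v := fun w hw c => by
      have c' := Finset.coe_subset.1 c
      rw [car, car, Finset.eq_of_subset_of_card_le c' (mx ⟨hw, hM _ _ c hv.2⟩ (Finset.card_le_card c'))]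
    have r := (k v hv.1 hv.2).loc (A' := A) (sep_subset _ _) fun u hu n w hw c => ⟨hw, by
      have e : car v ⊆ car u := by_contra fun e => n ⟨hu, e⟩
      exact (rc_nest hX c).elim (fun c => top w hw (e.trans c)) fun c => c.trans hu.2⟩
    have e : A \ ({b ∈ A | car b ⊆ car v} \ {b ∈ {b ∈ A | car b ⊆ car v} | ¬car v ⊆ car b}) =
        {b ∈ A | ¬car v ⊆ car b} := by
      ext b
      simp only [mem_sdiff, mem_ofPred_eq]
      exact and_congr_right fun hb => ⟨fun c l => c ⟨⟨hb, top b hb l⟩, fun d => d.2 l⟩,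
        fun c d => d.2 ⟨d.1, c⟩⟩
    rw [e] at r
    refine r.trans ?_
    convert ih _ (hA.sep _) (Nat.le_of_lt_succ ((ncard_lt_ncard ?_ (hA.sep _)).trans_le hn))
      fun u hu m => ?_ using 1
    · ext b
      exact ⟨fun c => ⟨⟨c.1, fun l => c.2 (hM _ _ l hv.2)⟩, c.2⟩, fun c => ⟨c.1.1, c.2⟩⟩
    · exact ⟨fun b c => ⟨c.1.1, c.2⟩, fun c => (c hv).1.2 Subset.rfl⟩
    · have e : {b ∈ {b ∈ A | ¬car v ⊆ car b} | car b ⊆ car u} = {b ∈ A | car b ⊆ car u} := by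
        ext b
        exact ⟨fun c => ⟨c.1.1, c.2⟩, fun c => ⟨⟨c.1, fun l => hu.2 (l.trans c.2)⟩, c.2⟩⟩
      rw [e]
      exact k u hu.1 m

section flag
variable {Γ : SimpleGraph V}

theorem clq_ins {η : Set V} {y : V} (hη : Γ.IsClique η) (hy : ∀ x ∈ η, Γ.Adj x y) :
    Γ.IsClique (insert y η) := hη.insert fun x hx _ => (hy x hx).symm

theorem rc_car (b : PV Γ.IsClique) {x y : V} (hx : x ∈ car b) (hy : y ∈ car b) : Rc Γ x y :=
  or_iff_not_imp_left.2 fun e => car_face b hx hy e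

variable (hX : Cx Γ.IsClique) {s : Finset (PV Γ.IsClique)} {a : PV Γ.IsClique} (h : Tp s a)
include hX h

/-- the open star of a face with non-evasive link can be removed -/
theorem Tp.star {m : ℕ} : ∀ {η Y : Set V} {A : Set (PV Γ.IsClique)}, Nev (Rc Γ) m Y → Γ.IsClique η →
    car a ⊂ η → (∀ y ∈ Y, ∀ x ∈ η, Γ.Adj x y) → A ⊆ Hf s univ (car a) →
    (∀ b ∈ A, η ⊆ car b → car b ⊆ η ∪ Y) → Hf s (η ∪ Y) (car a) ⊆ A →
    Red (Rc (ps Γ.IsClique)) A {b ∈ A | ¬η ⊆ car b} := by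
  have one : ∀ {η : Set V} {y : V} {A : Set (PV Γ.IsClique)}, Γ.IsClique η →
      car a ⊂ η → (∀ z ∈ ({y} : Set V), ∀ x ∈ η, Γ.Adj x z) → A ⊆ Hf s univ (car a) →
      (∀ b ∈ A, η ⊆ car b → car b ⊆ η ∪ {y}) → Hf s (η ∪ {y}) (car a) ⊆ A →
      Red (Rc (ps Γ.IsClique)) A {b ∈ A | ¬η ⊆ car b} := by
    intro η y A h1 h2 h3 h4 h5 h6
    rw [union_singleton] at h5 h6
    have k : ∀ b ∈ A, car b ⊆ insert y η → b ∈ Hf s (insert y η) (car a) := fun b hb c =>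
      ⟨(h4 hb).1, c, (h4 hb).2.2⟩
    convert (Tp.two hX h (clq_ins h1 (h3 y rfl)) h2 fun c => (h3 y rfl y c).ne rfl).loc h6
      fun u hu n w hw c => k w hw ((rc_nest hX c).elim (fun c => h5 w hw
        ((by_contra fun e => n ⟨hu, e⟩ : η ⊆ car u).trans c)) fun c => c.trans hu.2.1) using 1
    ext b
    simp only [mem_sdiff, mem_ofPred_eq]
    exact and_congr_right fun hb => ⟨fun c d => d.2 ⟨d.1, c⟩,
      fun c l => c ⟨k b hb (h5 b hb l), fun d => d.2 l⟩⟩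
  induction m with
  | zero => rintro η _ A ⟨y, rfl⟩; exact one
  | succ m ih =>
    rintro η Y A (⟨y, rfl⟩ | ⟨y, hy, n1, n2⟩)
    · exact one
    intro h1 h2 h3 h4 h5 h6
    have hn : y ∉ η := fun c => (h3 y hy y c).ne rfl
    have r := ih (A := A) n2 (clq_ins h1 (h3 y hy)) (h2.trans (ssubset_insert hn))
      (by
        rintro z hz x (rfl | hx)
        exacts [hz.2.resolve_left (Ne.symm hz.1.2), h3 z hz.1.1 x hx]) h4
      (fun b hb c x hx => by
        by_cases e : x = y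
        · exact Or.inl (Or.inl e)
        exact (h5 b hb ((subset_insert _ _).trans c) hx).imp Or.inr fun k =>
          ⟨⟨k, e⟩, rc_car b (c (mem_insert _ _)) hx⟩)
      fun b hb => h6 ⟨hb.1, hb.2.1.trans (by
        rintro x ((rfl | hx) | hx)
        exacts [Or.inr hy, Or.inl hx, Or.inr hx.1.1]), hb.2.2⟩
    refine r.trans ?_
    convert ih (A := {b ∈ A | ¬insert y η ⊆ car b}) n1 h1 h2 (fun z hz => h3 z hz.1) ((sep_subset _ _).trans h4) (fun b hb c x hx =>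
      (h5 b hb.1 c hx).imp_right fun k => ⟨k, fun e => hb.2 (insert_subset (e ▸ hx) c)⟩)
      fun b hb => ⟨h6 ⟨hb.1, hb.2.1.trans (union_subset_union_right _ sdiff_subset), hb.2.2⟩,
        fun c => (hb.2.1 (c (mem_insert _ _))).elim hn fun k => k.2 rfl⟩ using 1
    ext b
    exact ⟨fun c => ⟨⟨c.1, fun l => c.2 ((subset_insert _ _).trans l)⟩, c.2⟩, fun c => ⟨c.1.1, c.2⟩⟩

theorem Tp.link {m : ℕ} : ∀ {Y : Set V}, Nev (Rc Γ) m Y → (∀ y ∈ Y, ∀ x ∈ car a, Γ.Adj x y) →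
    NV (Rc (ps Γ.IsClique)) (Hf s (car a ∪ Y) (car a)) := by
  have one : ∀ {y : V}, (∀ z ∈ ({y} : Set V), ∀ x ∈ car a, Γ.Adj x z) →
      NV (Rc (ps Γ.IsClique)) (Hf s (car a ∪ {y}) (car a)) := fun {y} h3 => by
    rw [union_singleton]
    exact Tp.one hX h (clq_ins (car_face a) (h3 y rfl)) fun c => (h3 y rfl y c).ne rfl
  induction m with
  | zero => rintro _ ⟨y, rfl⟩; exact one
  | succ m ih =>
    rintro Y (⟨y, rfl⟩ | ⟨y, hy, n1, n2⟩)
    · exact one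
    intro h3
    have hn : y ∉ car a := fun c => (h3 y hy y c).ne rfl
    refine (Tp.star hX h (A := Hf s (car a ∪ Y) (car a)) n2 (clq_ins (car_face a) (h3 y hy))
      (ssubset_insert hn) (by
        rintro z hz x (rfl | hx)
        exacts [hz.2.resolve_left (Ne.symm hz.1.2), h3 z hz.1.1 x hx])
      (fun b hb => ⟨hb.1, subset_univ _, hb.2.2⟩)
      (fun b hb c x hx => by
        by_cases e : x = y
        · exact Or.inl (Or.inl e)
        exact (hb.2.1 hx).imp Or.inr fun k => ⟨⟨k, e⟩, rc_car b (c (mem_insert _ _)) hx⟩)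
      fun b hb => ⟨hb.1, hb.2.1.trans (by
        rintro x ((rfl | hx) | hx)
        exacts [Or.inr hy, Or.inl hx, Or.inr hx.1.1]), hb.2.2⟩).nv ?_
    convert ih n1 fun z hz => h3 z hz.1 using 1
    ext b
    exact ⟨fun c => ⟨c.1.1, fun x hx => (c.1.2.1 hx).imp_right fun k => ⟨k, fun e =>
      c.2 (insert_subset (e ▸ hx) (Tp.sub hX h c.1 Subset.rfl))⟩, c.1.2.2⟩,
      fun c => ⟨⟨c.1, c.2.1.trans (union_subset_union_right _ sdiff_subset), c.2.2⟩,
        fun l => (c.2.1 (l (mem_insert _ _))).elim hn fun k => k.2 rfl⟩⟩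

omit hX h in
theorem fin_up {W : Set V} (hW : W.Finite) : {b : PV Γ.IsClique | car b ⊆ W}.Finite := by
  classical
  have := hW.to_subtype
  refine Finite.of_finite_image (f := fun b => fun v : W => b.1 v) (toFinite _) fun b hb c hc e =>
    PV.ext (Finsupp.ext fun v => ?_)
  by_cases l : v ∈ W
  · exact congrFun e ⟨v, l⟩
  · rw [not_not.1 fun n => l (hb (mem_car.2 n)), not_not.1 fun n => l (hc (mem_car.2 n))]

theorem Tp.half {P Q : Set V} (hP : P.Finite) (hd : Disjoint P Q) (ha : car a ⊆ P)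
    (k : NV (Rc Γ) {y | y ∈ Q ∧ ∀ x ∈ car a, Rc Γ x y}) : NV (Rc (ps Γ.IsClique)) (Hf s (P ∪ Q) P) := by
  obtain ⟨m, k⟩ := k
  have e1 : ∀ b ∈ Hf s (P ∪ Q) P, ∀ y ∈ car b, y ∈ Q → y ∈ {y | y ∈ Q ∧ ∀ x ∈ car a, Rc Γ x y} :=
    fun b hb y hy q => ⟨q, fun x hx => rc_car b (Tp.sub hX h hb ha hx) hy⟩
  refine (red_faces hX (fun ρ => ¬ρ ∩ P ⊆ car a) (fun ρ ρ' l n c => n ((inter_subset_inter_left _ l).trans c))
    _ _ ((fin_up (hP.union k.finite)).subset fun b hb y hy => (hb.2.1 hy).imp_right (e1 b hb y hy))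
    le_rfl fun v hv n => ?_).nv ?_
  · convert Tp.mix hX h (π := car v ∩ P) (car_face v) ⟨subset_inter (Tp.sub hX h hv ha) ha, n⟩
      ⟨inter_subset_left, fun c => hv.2.2 (c.trans inter_subset_right)⟩ using 2 <;>
    · ext b
      simp only [Hf, mem_ofPred_eq, subset_inter_iff]
      have : car b ⊆ car v → car b ⊆ P ∪ Q := fun c => c.trans hv.2.1
      tauto
  · convert Tp.link hX h k fun y hy x hx => (hy.2 x hx).resolve_left fun e =>
      disjoint_left.1 hd (ha hx) (e ▸ hy.1) using 1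
    ext b
    refine ⟨fun c => ⟨c.1.1, fun y hy => (c.1.2.1 hy).imp (fun l => not_not.1 c.2 ⟨hy, l⟩) (e1 b c.1 y hy),
      fun l => c.1.2.2 (l.trans ha)⟩, fun c => ?_⟩
    have l : car b ∩ P ⊆ car a := fun y hy => (c.2.1 hy.1).resolve_right fun q =>
      disjoint_left.1 hd hy.2 q.1
    exact ⟨⟨c.1, c.2.1.trans (union_subset_union ha fun _ q => q.1),
      fun n => c.2.2 fun y hy => l ⟨hy, n hy⟩⟩, not_not.2 l⟩


end flag

end Crest.Agent.N233.Ne

end
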